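import Vale.Agent.P136.MathlibUsed

open MeasureTheory Filter Topology
open scoped ContDiff

namespace Vale.Agent.P136.Elasticity

/-- Three dimensional Euclidean space. -/
abbrev E3 := EuclideanSpace ℝ (Fin 3)

/-- The function `f` is `C^∞` on `ℝ³`. -/
def Smooth (f : E3 → ℝ) : Prop := ContDiff ℝ ∞ f

/-- The partial derivative `∂ᵢ f`. -/
noncomputable def pd (i : Fin 3) (f : E3 → ℝ) (x : E3) : ℝ :=
  fderiv ℝ f x (EuclideanSpace.single i 1)

/-- The integral of `f` over `Ω` with respect to Lebesgue measure. -/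
noncomputable def integ (Ω : Set E3) (f : E3 → ℝ) : ℝ := ∫ x in Ω, f x

/-- The function `f` is square integrable over `Ω`. -/
def L2 (Ω : Set E3) (f : E3 → ℝ) : Prop := MemLp f 2 (volume.restrict Ω)

/-- A bounded connected open subset of `ℝ³` whose boundary is smooth: near each boundary
point it is the set where a smooth function with nonzero gradient is negative. -/
structure SmoothDomain (Ω : Set E3) : Prop where
  isOpen : IsOpen Ω
  isBounded : Bornology.IsBounded Ω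
  isConnected : IsConnected Ω
  smooth_boundary : ∀ x ∈ frontier Ω, ∃ U ∈ 𝓝 x, ∃ ρ : E3 → ℝ,
    Smooth ρ ∧ (∃ i, pd i ρ x ≠ 0) ∧ ∀ y ∈ U, (y ∈ Ω ↔ ρ y < 0)

/-- Scalar test functions with compact support inside `Ω`. -/
def IsTest (Ω : Set E3) (φ : E3 → ℝ) : Prop :=
  Smooth φ ∧ HasCompactSupport φ ∧ tsupport φ ⊆ Ω

/-- An element of the Sobolev space `H¹(Ω; ℝ³)`: a square integrable field `val` together with
its square integrable weak derivatives, `der i j` being the weak derivative `∂ᵢ uⱼ`. -/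
structure H1 (Ω : Set E3) where
  val : Fin 3 → E3 → ℝ
  der : Fin 3 → Fin 3 → E3 → ℝ
  val_mem : ∀ j, L2 Ω (val j)
  der_mem : ∀ i j, L2 Ω (der i j)
  weak : ∀ i j, ∀ φ, IsTest Ω φ →
    integ Ω (fun x => val j x * pd i φ x) = - integ Ω (fun x => der i j x * φ x)

/-- Two elements of `H¹(Ω; ℝ³)` have the same boundary value: their difference lies in
`H¹₀(Ω; ℝ³)`, the closure of the smooth fields with compact support in `Ω`. -/
def SameTrace {Ω : Set E3} (u f : H1 Ω) : Prop :=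
  ∀ ε > 0, ∃ φ : Fin 3 → E3 → ℝ, (∀ j, IsTest Ω (φ j)) ∧
    (∀ j, integ Ω (fun x => (u.val j x - f.val j x - φ j x) ^ 2) < ε) ∧
    (∀ i j, integ Ω (fun x => (u.der i j x - f.der i j x - pd i (φ j) x) ^ 2) < ε)

/-- The elastic bilinear form `∫_Ω λ (div u)(div v) + 2 μ e(u) : e(v)`, as a function of the
gradients `G i j = ∂ᵢ uⱼ` and `H i j = ∂ᵢ vⱼ`. -/
noncomputable def form (Ω : Set E3) (lam mu : E3 → ℝ) (G H : Fin 3 → Fin 3 → E3 → ℝ) : ℝ :=
  integ Ω (fun x => lam x * ((∑ i, G i i x) * ∑ i, H i i x) +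
    2 * mu x * ∑ i, ∑ j, ((G i j x + G j i x) / 2) * ((H i j x + H j i x) / 2))

/-- `u` is a weak solution of the Lame system `div (λ (div u) I + 2 μ e(u)) = 0` in `Ω`. -/
def WeakSol {Ω : Set E3} (lam mu : E3 → ℝ) (u : H1 Ω) : Prop :=
  ∀ φ : Fin 3 → E3 → ℝ, (∀ j, IsTest Ω (φ j)) →
    form Ω lam mu u.der (fun i j => pd i (φ j)) = 0

/-- The displacement-to-traction map: `DN Ω lam mu f g r` says that `⟨Λ f, g⟩ = r`, where the
boundary values are those of `f, g ∈ H¹(Ω; ℝ³)`. -/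
def DN (Ω : Set E3) (lam mu : E3 → ℝ) (f g : H1 Ω) (r : ℝ) : Prop :=
  ∃ u : H1 Ω, SameTrace u f ∧ WeakSol lam mu u ∧ r = form Ω lam mu u.der g.der

/-- Equality of the two displacement-to-traction maps. -/
def SameDN (Ω : Set E3) (lam₁ mu₁ lam₂ mu₂ : E3 → ℝ) : Prop :=
  ∀ (f g : H1 Ω) (r : ℝ), DN Ω lam₁ mu₁ f g r ↔ DN Ω lam₂ mu₂ f g r

/-- Admissible pairs of Lame moduli: smooth, with `μ > 0` and `3 λ + 2 μ > 0` on the closure. -/
def Admissible (Ω : Set E3) (lam mu : E3 → ℝ) : Prop :=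
  Smooth lam ∧ Smooth mu ∧ ∀ x ∈ closure Ω, 0 < mu x ∧ 0 < 3 * lam x + 2 * mu x

end Vale.Agent.P136.Elasticity
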