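import Mathlib.Algebra.Order.Archimedean.Real.Hom
import Mathlib.Algebra.Order.Chebyshev
import Mathlib.Algebra.Ring.IsFormallyReal
import Mathlib.Analysis.CStarAlgebra.Module.Constructions
import Mathlib.Analysis.Calculus.BumpFunction.Normed
import Mathlib.Analysis.Calculus.FDeriv.Symmetric
import Mathlib.Analysis.Calculus.LineDeriv.IntegrationByParts
import Mathlib.Analysis.Calculus.Rademacher
import Mathlib.Analysis.Complex.Conformal
import Mathlib.Analysis.Normed.Affine.Convex
import Mathlib.Analysis.Normed.Lp.SmoothApprox
import Mathlib.Geometry.Manifold.Sheaf.Basic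
import Mathlib.LinearAlgebra.Matrix.Gershgorin
import Mathlib.MeasureTheory.Function.L2Space
import Mathlib.MeasureTheory.Integral.BoundedContinuousFunction
import Mathlib.MeasureTheory.Measure.Lebesgue.VolumeOfBalls
import Mathlib.Order.CompletePartialOrder
import Mathlib.RingTheory.DedekindDomain.SInteger
import Mathlib.RingTheory.Flat.FaithfullyFlat.Basic
import Mathlib.RingTheory.Flat.TorsionFree
import Mathlib.RingTheory.SimpleRing.Principal
import Mathlib.Tactic
import Mathlib.Topology.Filter
import Mathlib.Topology.Order.LowerUpperTopology
import Mathlib.Topology.UniformSpace.Uniformizable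

/-! The part of Mathlib that the development of this folder uses. -/
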